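import Mathlib

/-!
Row 210: kernels of negative type, their Fourier representation on finite abelian groups and the local
Poincaré inequality.
-/

set_option autoImplicit false

namespace Crest.Agent.R210

open Finset MeasureTheory

/-- symmetric conditionally negative definite kernels vanishing on the diagonal -/
structure CND {X : Type*} (δ : X → X → ℝ) : Prop where
  symm : ∀ x y, δ x y = δ y x
  diag : ∀ x, δ x x = 0
  neg : ∀ (ι : Type) [Fintype ι] (x : ι → X) (c : ι → ℝ), ∑ i, c i = 0 →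
    ∑ i, ∑ j, c i * c j * δ (x i) (x j) ≤ 0

theorem CND.comp {X Y : Type*} {δ : X → X → ℝ} (h : CND δ) (φ : Y → X) :
    CND fun x y => δ (φ x) (φ y) :=
  ⟨fun _ _ => h.symm _ _, fun _ => h.diag _, fun ι _ x c hc => h.neg ι (fun i => φ (x i)) c hc⟩

theorem abs_neg_type {ι : Type} [Fintype ι] (s : ι → ℝ) (c : ι → ℝ) (hc : ∑ i, c i = 0) :
    ∑ i, ∑ j, c i * c j * |s i - s j| ≤ 0 := by
  classical
  obtain ⟨R, hR⟩ : ∃ R : ℝ, ∀ i, R ≤ s i := by
    obtain ⟨R, hR⟩ := (Set.finite_range s).bddBelow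
    exact ⟨R, fun i => hR ⟨i, rfl⟩⟩
  have hp := posSemidef_matrix_measure_inter (μ := (volume : Measure ℝ)) (s := fun i => Set.Icc R (s i))
    (fun _ => measurableSet_Icc) (fun _ => by simp)
  have h0 := hp.dotProduct_mulVec_nonneg c
  simp only [star_trivial, dotProduct, Matrix.mulVec, Matrix.of_apply, Set.Icc_inter_Icc, max_self,
    Real.volume_real_Icc] at h0
  have e : ∀ i j, c i * c j * |s i - s j| =
      c i * (s i - R) * c j + c i * (c j * (s j - R)) - 2 * (c i * (max (min (s i) (s j) - R) 0 * c j)) := by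
    intro i j
    have h1 := hR i
    have h2 := hR j
    rcases le_total (s i) (s j) with h | h
    · rw [min_eq_left h, max_eq_left (by linarith), abs_of_nonpos (by linarith)]; ring
    · rw [min_eq_right h, max_eq_left (by linarith), abs_of_nonneg (by linarith)]; ring
  simp only [e, sum_sub_distrib, sum_add_distrib, ← mul_sum, ← sum_mul, hc]
  linarith

theorem cnd_l1 : CND fun x y : lp (fun _ : ℕ => ℝ) 1 => ‖x - y‖ := by
  refine ⟨fun x y => norm_sub_rev _ _, fun x => by simp, fun ι _ x c hc => ?_⟩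
  have hs : ∀ z : lp (fun _ : ℕ => ℝ) 1, HasSum (fun n => |z n|) ‖z‖ := by
    intro z
    have := lp.hasSum_norm (p := 1) (by simp) z
    simpa using this
  have h1 : HasSum (fun n => ∑ i, ∑ j, c i * c j * |x i n - x j n|)
      (∑ i, ∑ j, c i * c j * ‖x i - x j‖) := by
    refine hasSum_sum fun i _ => hasSum_sum fun j _ => ?_
    simpa using (hs (x i - x j)).mul_left (c i * c j)
  exact h1.nonpos fun n => abs_neg_type (fun i => x i n) c hc

section Fourier

variable {A : Type} [AddCommGroup A] [Fintype A]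

/-- translation average -/
def Dsum (δ : A → A → ℝ) (a : A) : ℝ := ∑ x, δ x (x + a)

theorem re_mul_sum [DecidableEq A] (a b : A) :
    ∑ ψ : AddChar A ℂ, (ψ a).re * (ψ b).re =
      (if a = b then (Fintype.card A : ℝ) / 2 else 0) + (if a = -b then (Fintype.card A : ℝ) / 2 else 0) := by
  have e : ∀ ψ : AddChar A ℂ, (ψ a).re * (ψ b).re = (ψ (a - b)).re / 2 + (ψ (a + b)).re / 2 := by
    intro ψ
    rw [sub_eq_add_neg, AddChar.map_add_eq_mul, AddChar.map_add_eq_mul, AddChar.map_neg_eq_conj]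
    simp [Complex.mul_re]; ring
  have h : ∀ z : A, ∑ ψ : AddChar A ℂ, (ψ z).re = if z = 0 then (Fintype.card A : ℝ) else 0 := by
    intro z
    rw [← Complex.re_sum, AddChar.sum_apply_eq_ite]
    split_ifs <;> simp
  simp only [e, sum_add_distrib, ← sum_div, h, sub_eq_zero, add_eq_zero_iff_eq_neg]
  split_ifs <;> simp

theorem CND.fourier {δ : A → A → ℝ} (h : CND δ) :
    ∃ ω : AddChar A ℂ → ℝ, (∀ ψ, 0 ≤ ω ψ) ∧ ∀ a, Dsum δ a = ∑ ψ, ω ψ * (1 - (ψ a).re) := by
  classical
  have hsym : ∀ a, Dsum δ (-a) = Dsum δ a := by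
    intro a
    unfold Dsum
    rw [← Equiv.sum_comp (Equiv.addRight a)]
    refine sum_congr rfl fun x _ => ?_
    simp [h.symm (x + a) x]
  have h0 : Dsum δ 0 = 0 := by simp [Dsum, h.diag]
  set R : AddChar A ℂ → ℝ := fun ψ => ∑ a, Dsum δ a * (ψ a).re with hR
  have hcard : (0 : ℝ) < Fintype.card A := by exact_mod_cast Fintype.card_pos
  have inv : ∀ a, ∑ ψ, R ψ * (ψ a).re = Fintype.card A * Dsum δ a := by
    intro a
    simp only [hR, sum_mul, mul_assoc]
    rw [sum_comm]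
    simp only [← mul_sum, re_mul_sum, mul_add, sum_add_distrib, mul_ite, mul_zero, sum_ite_eq',
      mem_univ, if_true, hsym]
    ring
  have hneg : ∀ ψ : AddChar A ℂ, ψ ≠ 0 → R ψ ≤ 0 := by
    intro ψ hψ
    have hs : ∑ x, ψ x = 0 := AddChar.sum_eq_zero_iff_ne_zero.2 hψ
    have h1 := h.neg A id (fun x => (ψ x).re) (by rw [← Complex.re_sum, hs]; simp)
    have h2 := h.neg A id (fun x => (ψ x).im) (by rw [← Complex.im_sum, hs]; simp)
    have e : R ψ = ∑ x, ∑ y, (ψ x).re * (ψ y).re * δ x y + ∑ x, ∑ y, (ψ x).im * (ψ y).im * δ x y := by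
      simp only [hR, Dsum, sum_mul, ← sum_add_distrib]
      rw [sum_comm]
      refine sum_congr rfl fun x _ => ?_
      rw [← Equiv.sum_comp (Equiv.addLeft x) (fun y => (ψ x).re * (ψ y).re * δ x y +
        (ψ x).im * (ψ y).im * δ x y)]
      refine sum_congr rfl fun a _ => ?_
      have hn : (ψ x).re * (ψ x).re + (ψ x).im * (ψ x).im = 1 := by
        have := AddChar.norm_apply ψ x
        rw [← Complex.normSq_apply, Complex.normSq_eq_norm_sq, this]; norm_num
      simp only [Equiv.coe_addLeft, AddChar.map_add_eq_mul, Complex.mul_re, Complex.mul_im]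
      linear_combination (-(δ x (x + a) * (ψ a).re)) * hn
    simp only [id] at h1 h2
    linarith
  refine ⟨fun ψ => if ψ = 0 then 0 else -R ψ / Fintype.card A, fun ψ => ?_, fun a => ?_⟩
  · dsimp only
    split_ifs with hψ
    · exact le_rfl
    · exact div_nonneg (by linarith [hneg ψ hψ]) hcard.le
  · have e : ∀ ψ : AddChar A ℂ, (if ψ = 0 then 0 else -R ψ / Fintype.card A) * (1 - (ψ a).re) =
        (R ψ * (ψ a).re - R ψ * (ψ 0).re) / Fintype.card A := by
      intro ψ
      split_ifs with hψ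
      · subst hψ; simp
      · simp; ring
    simp only [e, ← sum_div, sum_sub_distrib, inv, h0]
    field_simp
    simp

end Fourier

/-- average of `1 - Re z^u` -/
noncomputable def cav (z : ℂ) (m : ℕ) : ℝ := (∑ u ∈ range m, (1 - (z ^ u).re)) / m

theorem cav_nonneg {z : ℂ} (hz : ‖z‖ = 1) (m : ℕ) : 0 ≤ cav z m := by
  refine div_nonneg (sum_nonneg fun u _ => ?_) (by positivity)
  have := Complex.re_le_norm (z ^ u)
  rw [norm_pow, hz, one_pow] at this
  linarith

theorem cav_one (m : ℕ) : cav 1 m = 0 := by simp [cav]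

theorem cav_eq (z : ℂ) {m : ℕ} (hm : 0 < m) : cav z m = 1 - (∑ u ∈ range m, z ^ u).re / m := by
  have : (m : ℝ) ≠ 0 := by positivity
  rw [cav, sum_sub_distrib, Complex.re_sum]
  simp; field_simp

theorem cav_root {z : ℂ} {m : ℕ} (hm : 0 < m) (hz : z ^ m = 1) (h1 : z ≠ 1) : cav z m = 1 := by
  rw [cav_eq z hm, geom_sum_eq h1, hz]; simp

theorem cav_half {z : ℂ} (hn : ‖z‖ = 1) {P S : ℕ} (hP : 0 < P) (hz : z ^ P = 1) (h1 : z ≠ 1)
    (hS : 2 * P ≤ S) : 1 / 2 ≤ cav z S := by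
  have hS0 : 0 < S := by omega
  rw [cav_eq z hS0]
  have e : ∑ u ∈ range S, z ^ u = ∑ u ∈ range (S % P), z ^ u := by
    rw [geom_sum_eq h1, geom_sum_eq h1]
    conv_lhs => rw [← Nat.div_add_mod S P, pow_add, pow_mul, hz, one_pow, one_mul]
  have h2 : (∑ u ∈ range S, z ^ u).re ≤ P := by
    rw [e]
    refine (Complex.re_le_norm _).trans ((norm_sum_le _ _).trans ?_)
    simp only [norm_pow, hn, one_pow, sum_const, card_range, nsmul_eq_mul, mul_one]
    exact_mod_cast (Nat.mod_lt _ hP).le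
  have h3 : (2 * P : ℝ) ≤ S := by exact_mod_cast hS
  have h4 : (0 : ℝ) < S := by exact_mod_cast hS0
  have : (∑ u ∈ range S, z ^ u).re / S ≤ 1 / 2 := by
    rw [div_le_iff₀ h4]; linarith
  linarith

theorem char_ineq {r q Q S t : ℕ} (p : Fin r → ℕ) (hq : 0 < q) (hp : ∀ j, 0 < p j) (hqQ : q ≤ Q)
    (hpQ : ∀ j, p j ≤ Q) (hco : ∀ j, Nat.Coprime q (p j)) (ht : 0 < t) (hS : 2 * Q ^ t ≤ S)
    (z0 : ℂ) (z : Fin r → ℂ) (n0 : ‖z0‖ = 1) (nz : ∀ j, ‖z j‖ = 1) (h0 : z0 ^ q = 1)
    (hz : ∀ j, z j ^ p j = 1) :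
    cav z0 q ≤ 2 * cav (z0 * ∏ j, z j) S + (∑ j, cav (z j) (p j)) / t := by
  classical
  have nZ : ‖z0 * ∏ j, z j‖ = 1 := by simp [n0, nz]
  have a1 := cav_nonneg nZ S
  have a2 : 0 ≤ ∑ j, cav (z j) (p j) := sum_nonneg fun j _ => cav_nonneg (nz j) _
  have ht' : (0 : ℝ) < t := by exact_mod_cast ht
  by_cases h1 : z0 = 1
  · have : 0 ≤ (∑ j, cav (z j) (p j)) / t := by positivity
    have e : cav z0 q = 0 := by rw [h1, cav_one]
    linarith
  rw [cav_root hq h0 h1]
  set J := univ.filter fun j => z j ≠ 1 with hJ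
  by_cases hc : t ≤ J.card
  · have : (t : ℝ) ≤ ∑ j, cav (z j) (p j) := by
      calc (t : ℝ) ≤ J.card := by exact_mod_cast hc
        _ = ∑ j ∈ J, cav (z j) (p j) := by
          rw [sum_congr rfl fun j hj => cav_root (hp j) (hz j) (mem_filter.1 hj).2, sum_const,
            nsmul_eq_mul, mul_one]
        _ ≤ _ := sum_le_sum_of_subset_of_nonneg (subset_univ _) fun j _ _ => cav_nonneg (nz j) _
    have : 1 ≤ (∑ j, cav (z j) (p j)) / t := by rw [le_div_iff₀ ht']; linarith
    linarith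
  · set P' := ∏ j ∈ J, p j with hP'
    have hzP : ∀ j, z j ^ P' = 1 := by
      intro j
      by_cases hj : z j = 1
      · rw [hj, one_pow]
      · obtain ⟨c, hc⟩ : p j ∣ P' := dvd_prod_of_mem _ (mem_filter.2 ⟨mem_univ _, hj⟩)
        rw [hc, pow_mul, hz, one_pow]
    have hZ : (z0 * ∏ j, z j) ^ P' = z0 ^ P' := by
      rw [mul_pow, ← prod_pow]; simp [hzP]
    have hcop : Nat.Coprime q P' := Nat.Coprime.prod_right fun j _ => hco j
    have hne : z0 * ∏ j, z j ≠ 1 := by
      intro h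
      rw [h, one_pow] at hZ
      apply h1
      have := pow_gcd_eq_one.2 ⟨h0, hZ.symm⟩
      rwa [hcop, pow_one] at this
    have hP0 : 0 < P' := prod_pos fun j _ => hp j
    have hPQ : P' * q ≤ Q ^ t := by
      have h2 : P' ≤ Q ^ J.card := prod_le_pow_card _ _ _ fun j _ => hpQ j
      calc P' * q ≤ Q ^ J.card * Q := Nat.mul_le_mul h2 hqQ
        _ = Q ^ (J.card + 1) := by ring
        _ ≤ Q ^ t := Nat.pow_le_pow_right (by omega) (by omega)
    have := cav_half nZ (P := P' * q) (S := S) (Nat.mul_pos hP0 hq)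
      (by rw [pow_mul, hZ, ← pow_mul, mul_comm, pow_mul, h0, one_pow]) hne (by omega)
    have : 0 ≤ (∑ j, cav (z j) (p j)) / t := by positivity
    linarith

section Local

variable {A : Type} [AddCommGroup A] [Fintype A]

/-- average of `Dsum` over the first `m` multiples of `a` -/
noncomputable def Tav (δ : A → A → ℝ) (a : A) (m : ℕ) : ℝ := (∑ u ∈ range m, Dsum δ (u • a)) / m

theorem local_poincare {δ : A → A → ℝ} (h : CND δ) {r q Q S t : ℕ} (p : Fin r → ℕ) (hq : 0 < q)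
    (hp : ∀ j, 0 < p j) (hqQ : q ≤ Q) (hpQ : ∀ j, p j ≤ Q) (hco : ∀ j, Nat.Coprime q (p j))
    (ht : 0 < t) (hS : 2 * Q ^ t ≤ S) (ρ : A) (τ : Fin r → A) (hρ : q • ρ = 0)
    (hτ : ∀ j, p j • τ j = 0) :
    Tav δ ρ q ≤ 2 * Tav δ (ρ + ∑ j, τ j) S + (∑ j, Tav δ (τ j) (p j)) / t := by
  obtain ⟨ω, hω, hD⟩ := h.fourier
  have e : ∀ a m, Tav δ a m = ∑ ψ, ω ψ * cav (ψ a) m := by
    intro a m
    simp only [Tav, hD, cav, AddChar.map_nsmul_eq_pow]
    rw [sum_comm, sum_div]
    refine sum_congr rfl fun ψ _ => ?_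
    rw [← mul_sum]; ring
  simp only [e]
  rw [sum_comm, sum_div, mul_sum, ← sum_add_distrib]
  refine sum_le_sum fun ψ _ => ?_
  have hprod : ψ (∑ j, τ j) = ∏ j, ψ (τ j) := by
    classical
    induction (univ : Finset (Fin r)) using Finset.induction_on with
    | empty => simp
    | insert a s ha ih => rw [sum_insert ha, prod_insert ha, AddChar.map_add_eq_mul, ih]
  have := char_ineq p hq hp hqQ hpQ hco ht hS (ψ ρ) (fun j => ψ (τ j)) (AddChar.norm_apply _ _)
    (fun j => AddChar.norm_apply _ _) (by rw [← AddChar.map_nsmul_eq_pow, hρ]; simp)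
    (fun j => by rw [← AddChar.map_nsmul_eq_pow, hτ]; simp)
  rw [AddChar.map_add_eq_mul, hprod, ← mul_sum]
  have := mul_le_mul_of_nonneg_left this (hω ψ)
  calc _ ≤ _ := this
    _ = _ := by ring

end Local

end Crest.Agent.R210
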