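import Crest.Prelude.Def_EditDistance

/-!
Row 210: words.  Common subsequences, the lattice path bound, a comma-free binary code and two-sided
bounds for the edit distance.
-/

set_option autoImplicit false

namespace Crest.Agent.R210

open List Crest.GeometryTopology.EditDistance

variable {α β : Type*}

/-- a common subsequence misses at most `c` symbols of each word -/
def Near (c : ℕ) (x y : List α) : Prop :=
  ∃ w : List α, w <+ x ∧ w <+ y ∧ x.length ≤ w.length + c ∧ y.length ≤ w.length + c

theorem Near.mono {c c' : ℕ} {x y : List α} (h : Near c x y) (hc : c ≤ c') : Near c' x y := by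
  obtain ⟨w, h1, h2, h3, h4⟩ := h
  exact ⟨w, h1, h2, by omega, by omega⟩

theorem near_refl (x : List α) : Near 0 x x := ⟨x, Sublist.refl _, Sublist.refl _, by simp, by simp⟩

theorem near_of_length {c : ℕ} {x y : List α} (hx : x.length ≤ c) (hy : y.length ≤ c) : Near c x y :=
  ⟨[], nil_sublist _, nil_sublist _, by simpa, by simpa⟩

theorem Near.append {c c' : ℕ} {x y x' y' : List α} (h : Near c x y) (h' : Near c' x' y') :
    Near (c + c') (x ++ x') (y ++ y') := by
  obtain ⟨w, h1, h2, h3, h4⟩ := h
  obtain ⟨w', h1', h2', h3', h4'⟩ := h'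
  exact ⟨w ++ w', h1.append h1', h2.append h2', by simp; omega, by simp; omega⟩

theorem Near.map {c : ℕ} {x y : List α} (h : Near c x y) (f : α → β) :
    Near c (x.map f) (y.map f) := by
  obtain ⟨w, h1, h2, h3, h4⟩ := h
  exact ⟨w.map f, h1.map f, h2.map f, by simpa, by simpa⟩

theorem near_flatMap_range (X Y : ℕ → List α) (c : ℕ → ℕ) (N : ℕ) (h : ∀ a < N, Near (c a) (X a) (Y a)) :
    Near (∑ a ∈ Finset.range N, c a) ((List.range N).flatMap X) ((List.range N).flatMap Y) := by
  induction N with
  | zero => simpa using near_refl _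
  | succ N ih =>
    rw [Finset.sum_range_succ, List.range_succ, flatMap_append, flatMap_append]
    refine (ih fun a ha => h a (by omega)).append ?_
    simpa using h N (by omega)

theorem length_flatMap_const (x : List α) (f : α → List β) (L : ℕ) (h : ∀ a ∈ x, (f a).length = L) :
    (x.flatMap f).length = x.length * L := by
  induction x with
  | nil => simp
  | cons a x ih =>
    rw [flatMap_cons, length_append, h a (by simp), ih fun b hb => h b (by simp [hb]), length_cons]
    ring

theorem Near.flatMap {c L : ℕ} {x y : List α} (h : Near c x y) (f : α → List β)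
    (hx : ∀ a ∈ x, (f a).length = L) (hy : ∀ a ∈ y, (f a).length = L) :
    Near (c * L) (x.flatMap f) (y.flatMap f) := by
  obtain ⟨w, h1, h2, h3, h4⟩ := h
  have hw := length_flatMap_const w f L fun a ha => hx a (h1.subset ha)
  refine ⟨w.flatMap f, h1.flatMap f, h2.flatMap f, ?_, ?_⟩
  · rw [hw, length_flatMap_const x f L hx, ← add_mul]; exact Nat.mul_le_mul_right _ h3
  · rw [hw, length_flatMap_const y f L hy, ← add_mul]; exact Nat.mul_le_mul_right _ h4

theorem near_shift (X : ℕ → List α) (n N m : ℕ) (h : ∀ a, (X a).length = n) :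
    Near (m * n) ((List.range N).flatMap X) ((List.range N).flatMap fun a => X (a + m)) := by
  have hl : ∀ (l : List ℕ) (g : ℕ → ℕ), (l.flatMap fun a => X (g a)).length = l.length * n :=
    fun l g => length_flatMap_const _ _ _ fun a _ => h _
  have hl1 : ∀ (l : List ℕ), (l.flatMap X).length = l.length * n :=
    fun l => length_flatMap_const _ _ _ fun a _ => h _
  by_cases hm : N ≤ m
  · refine near_of_length ?_ ?_
    · rw [hl1, length_range]; exact Nat.mul_le_mul_right _ hm
    · rw [hl, length_range]; exact Nat.mul_le_mul_right _ hm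
  obtain ⟨k, rfl⟩ : ∃ k, N = m + k := ⟨N - m, by omega⟩
  refine ⟨(List.range k).flatMap fun a => X (a + m), ?_, ?_, ?_, ?_⟩
  · rw [List.range_add, flatMap_append, flatMap_map]
    simp only [add_comm m]
    exact sublist_append_right _ _
  · rw [add_comm m k, List.range_add, flatMap_append]
    exact sublist_append_left _ _
  · rw [hl1, hl, length_range, length_range]; ring_nf; omega
  · rw [hl, hl, length_range, length_range]; ring_nf; omega

theorem chain_bound (X Y : ℕ → List α) (N : ℕ) (Φ : ℕ → ℕ → ℕ)
    (h : ∀ a < N, ∀ a' < N, ∀ w : List α, w <+ X a → w <+ Y a' →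
      w.length + Φ (a + 1) a' ≤ Φ a a' ∧ w.length + Φ a (a' + 1) ≤ Φ a a') :
    ∀ m m' a a', a + m = N → a' + m' = N → ∀ w : List α, w <+ (List.range' a m).flatMap X →
      w <+ (List.range' a' m').flatMap Y → w.length ≤ Φ a a' := by
  intro m
  induction m with
  | zero => intro m' a a' _ _ w hw _; simp at hw; simp [hw]
  | succ m ih =>
    intro m'
    induction m' with
    | zero => intro a a' _ _ w _ hw; simp at hw; simp [hw]
    | succ m' ih' =>
      intro a a' ha ha' w h1 h2
      have h1' := h1
      have h2' := h2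
      rw [List.range'_succ, flatMap_cons, sublist_append_iff] at h1 h2
      obtain ⟨w1, w2, e1, h11, h12⟩ := h1
      obtain ⟨v1, v2, e2, h21, h22⟩ := h2
      have e3 := e1.symm.trans e2
      rw [append_eq_append_iff] at e3
      rcases e3 with ⟨c, e4, e5⟩ | ⟨c, e4, e5⟩
      · have b1 := (h a (by omega) a' (by omega) w1 h11
          ((e4 ▸ sublist_append_left w1 c).trans h21)).1
        have b2 := ih (m' + 1) (a + 1) a' (by omega) ha' w2 h12
          ((e1 ▸ sublist_append_right w1 w2).trans h2')
        rw [e1, length_append]; omega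
      · have b1 := (h a (by omega) a' (by omega) v1
          ((e4 ▸ sublist_append_left v1 c).trans h11) h21).2
        have b2 := ih' a (a' + 1) ha (by omega) v2
          ((e2 ▸ sublist_append_right v1 v2).trans h1') h22
        rw [e2, length_append]; omega

/-! ### upper bound for the edit distance -/

theorem walk_of_sublist {w x : List α} (h : w <+ x) :
    ∀ l : List α, ∃ p : (editGraph α).Walk (l ++ w) (l ++ x), p.length + w.length = x.length := by
  induction h with
  | slnil => intro l; exact ⟨.nil, by simp⟩
  | @cons w x a _ ih =>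
    intro l
    obtain ⟨p, hp⟩ := ih l
    have hadj : (editGraph α).Adj (l ++ x) (l ++ a :: x) := by
      rw [editGraph, SimpleGraph.fromRel_adj]
      refine ⟨fun h => ?_, Or.inl (Or.inl ⟨l, x, a, rfl, rfl⟩)⟩
      have := congrArg List.length h
      simp at this
    exact ⟨p.concat hadj, by simp; omega⟩
  | @cons_cons w x a _ ih =>
    intro l
    obtain ⟨p, hp⟩ := ih (l ++ [a])
    exact ⟨p.copy (by simp) (by simp), by simp; omega⟩

theorem Near.exists_walk {c : ℕ} {x y : List α} (h : Near c x y) :
    ∃ p : (editGraph α).Walk x y, p.length ≤ 2 * c := by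
  obtain ⟨w, h1, h2, h3, h4⟩ := h
  obtain ⟨p, hp⟩ := walk_of_sublist h1 []
  obtain ⟨q, hq⟩ := walk_of_sublist h2 []
  refine ⟨(p.reverse.append q).copy (by simp) (by simp), ?_⟩
  simp; omega

theorem Near.editDist_le {c : ℕ} {x y : List α} (h : Near c x y) : editDist x y ≤ 2 * c := by
  obtain ⟨p, hp⟩ := h.exists_walk
  exact (SimpleGraph.dist_le p).trans hp

theorem exists_walk_editDist (x y : List α) :
    ∃ p : (editGraph α).Walk x y, p.length = editDist x y := by
  obtain ⟨p, -⟩ := (near_of_length (c := x.length + y.length) (x := x) (y := y) (by omega)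
    (by omega)).exists_walk
  exact SimpleGraph.Reachable.exists_walk_length_eq_dist ⟨p⟩

/-! ### lower bound through a comma-free code -/

/-- disjoint ordered occurrences of code words -/
inductive Emb (cw : β → List α) : List α → List β → Prop
  | nil (u : List α) : Emb cw u []
  | skip (b : α) (u : List α) (w : List β) : Emb cw u w → Emb cw (b :: u) w
  | take (a : β) (u : List α) (w : List β) : Emb cw u w → Emb cw (cw a ++ u) (a :: w)

theorem Emb.prefix {cw : β → List α} {u : List α} {w : List β} (h : Emb cw u w) (l : List α) :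
    Emb cw (l ++ u) w := by
  induction l with
  | nil => exact h
  | cons b l ih => exact Emb.skip _ _ _ ih

theorem emb_enc (cw : β → List α) (w : List β) : Emb cw (w.flatMap cw) w := by
  induction w with
  | nil => exact Emb.nil _
  | cons a w ih => rw [flatMap_cons]; exact Emb.take _ _ _ ih

theorem Emb.edit {cw : β → List α} {u : List α} {w : List β} (h : Emb cw u w) (m m' r : List α)
    (hm : m.length ≤ 1) : ∀ l : List α, u = l ++ (m ++ r) →
      ∃ w' : List β, w' <+ w ∧ w.length ≤ w'.length + 1 ∧ Emb cw (l ++ (m' ++ r)) w' := by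
  induction h with
  | nil u => intro l _; exact ⟨[], Sublist.refl _, by simp, Emb.nil _⟩
  | skip b u w h ih =>
    intro l e
    rcases l with _ | ⟨b', l⟩
    · refine ⟨w, Sublist.refl _, by simp, ?_⟩
      rcases m with _ | ⟨x, _ | ⟨y, m⟩⟩
      · simp only [nil_append] at e ⊢
        rw [← e]
        exact (Emb.skip _ _ _ h).prefix _
      · simp only [nil_append, cons_append, cons.injEq] at e ⊢
        rw [← e.2]
        exact h.prefix _
      · simp at hm
    · simp only [cons_append, cons.injEq] at e
      obtain ⟨w', h1, h2, h3⟩ := ih l e.2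
      exact ⟨w', h1, h2, Emb.skip _ _ _ h3⟩
  | take a u w h ih =>
    intro l e
    have key : ∀ c, l = cw a ++ c → u = c ++ (m ++ r) →
        ∃ w' : List β, w' <+ a :: w ∧ (a :: w).length ≤ w'.length + 1 ∧ Emb cw (l ++ (m' ++ r)) w' := by
      intro c e1 e2
      obtain ⟨w', h1, h2, h3⟩ := ih c e2
      refine ⟨a :: w', h1.cons_cons a, by simpa, ?_⟩
      rw [e1, append_assoc]
      exact Emb.take _ _ _ h3
    rw [append_eq_append_iff] at e
    rcases e with ⟨c, e1, e2⟩ | ⟨c, e1, e2⟩
    · exact key c e1 e2
    · rcases c with _ | ⟨x, c⟩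
      · exact key [] (by simpa using e1.symm) (by simpa using e2.symm)
      · refine ⟨w, sublist_cons_self _ _, by simp, ?_⟩
        rcases m with _ | ⟨y, _ | ⟨z, m⟩⟩
        · simp only [nil_append] at e2
          rw [e2, ← append_assoc, ← append_assoc]
          exact h.prefix _
        · simp only [nil_append, cons_append, cons.injEq] at e2
          rw [e2.2, ← append_assoc, ← append_assoc]
          exact h.prefix _
        · simp at hm

theorem Emb.adj {cw : β → List α} {u v : List α} {w : List β} (h : Emb cw u w)
    (ha : (editGraph α).Adj u v) :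
    ∃ w' : List β, w' <+ w ∧ w.length ≤ w'.length + 1 ∧ Emb cw v w' := by
  rw [editGraph, SimpleGraph.fromRel_adj] at ha
  rcases ha.2 with (⟨l, r, a, e1, e2⟩ | ⟨l, r, a, b, -, e1, e2⟩) |
    (⟨l, r, a, e1, e2⟩ | ⟨l, r, a, b, -, e1, e2⟩)
  · rw [e2]; exact h.edit [] [a] r (by simp) l e1
  · rw [e2]; exact h.edit [a] [b] r (by simp) l e1
  · rw [e1]; exact h.edit [a] [] r (by simp) l e2
  · rw [e1]; exact h.edit [b] [a] r (by simp) l e2

theorem Emb.walk {cw : β → List α} {u v : List α} (p : (editGraph α).Walk u v) :
    ∀ w : List β, Emb cw u w →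
      ∃ w' : List β, w' <+ w ∧ w.length ≤ w'.length + p.length ∧ Emb cw v w' := by
  induction p with
  | nil => intro w h; exact ⟨w, Sublist.refl _, by simp, h⟩
  | cons ha p ih =>
    intro w h
    obtain ⟨w1, h1, h2, h3⟩ := h.adj ha
    obtain ⟨w2, h4, h5, h6⟩ := ih w1 h3
    exact ⟨w2, h4.trans h1, by simp; omega, h6⟩

/-- no two adjacent `true`s and no final `true` -/
inductive Safe : List Bool → Prop
  | nil : Safe []
  | ff (l : List Bool) : Safe l → Safe (false :: l)
  | tt (l : List Bool) : Safe (false :: l) → Safe (true :: false :: l)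

theorem Safe.tail {b : Bool} {l : List Bool} (h : Safe (b :: l)) : Safe l := by
  cases h with
  | ff _ h => exact h
  | tt _ h => exact h

/-- interleave with `false` -/
def dbl (l : List Bool) : List Bool := l.flatMap fun b => [b, false]

theorem safe_dbl (l : List Bool) : Safe (dbl l) := by
  induction l with
  | nil => exact Safe.nil
  | cons b l ih =>
    cases b
    · exact Safe.ff _ (Safe.ff _ ih)
    · exact Safe.tt _ (Safe.ff _ ih)

theorem dbl_inj : ∀ {l l' : List Bool}, dbl l = dbl l' → l = l'
  | [], [], _ => rfl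
  | [], _ :: _, h => by simp [dbl] at h
  | _ :: _, [], h => by simp [dbl] at h
  | b :: l, b' :: l', h => by
    simp only [dbl, flatMap_cons, cons_append, nil_append, cons.injEq, true_and] at h
    rw [h.1, dbl_inj (l := l) (l' := l') h.2]

/-- one-hot encoding of a list of numbers below `Q` -/
def bits (Q : ℕ) (a : List ℕ) : List Bool :=
  a.flatMap fun v => (List.range Q).map fun i => decide (i = v)

theorem bits_inj (Q : ℕ) : ∀ {a a' : List ℕ}, a.length = a'.length → (∀ v ∈ a, v < Q) →
    bits Q a = bits Q a' → a = a'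
  | [], [], _, _, _ => rfl
  | [], _ :: _, h, _, _ => by simp at h
  | _ :: _, [], h, _, _ => by simp at h
  | v :: a, v' :: a', h, hv, e => by
    simp only [bits, flatMap_cons] at e
    obtain ⟨e1, e2⟩ := append_inj e (by simp)
    have h1 := (map_inj_left.1 e1) v (mem_range.2 (hv v (by simp)))
    simp only [decide_true, true_eq_decide_iff] at h1
    rw [h1, bits_inj Q (a := a) (a' := a') (by simpa using h) (fun u hu => hv u (by simp [hu])) e2]

/-- the code word -/
def cw (Q : ℕ) (a : List ℕ) : List Bool := true :: true :: false :: dbl (bits Q a)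

theorem length_cw (Q : ℕ) (a : List ℕ) : (cw Q a).length = 3 + a.length * Q * 2 := by
  have h1 : (bits Q a).length = a.length * Q := length_flatMap_const _ _ _ fun _ _ => by simp
  have h2 : (dbl (bits Q a)).length = (bits Q a).length * 2 :=
    length_flatMap_const _ _ _ fun _ _ => by simp
  simp only [cw, length_cons, h2, h1]; ring

theorem Emb.sublist {Q m : ℕ} {u : List Bool} {w : List (List ℕ)} (h : Emb (cw Q) u w) :
    (∀ a ∈ w, a.length = m ∧ ∀ v ∈ a, v < Q) → ∀ (x : List (List ℕ)) (s : List Bool), Safe s →
      u = s ++ x.flatMap (cw Q) → (∀ a ∈ x, a.length = m) → w <+ x := by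
  induction h with
  | nil u => intro _ x _ _ _ _; exact nil_sublist _
  | skip b u w h ih =>
    intro hw x s hs e hx
    rcases s with _ | ⟨b', s⟩
    · rcases x with _ | ⟨a, x⟩
      · simp at e
      · simp only [nil_append, flatMap_cons, cw, cons_append, cons.injEq] at e
        refine (ih hw x (true :: false :: dbl (bits Q a)) (Safe.tt _ (Safe.ff _ (safe_dbl _))) ?_
          fun b hb => hx b (by simp [hb])).cons a
        simpa [cw] using e.2
    · simp only [cons_append, cons.injEq] at e
      exact ih hw x s hs.tail e.2 hx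
  | take a u w h ih =>
    intro hw x s hs e hx
    cases hs with
    | nil =>
      rcases x with _ | ⟨a', x⟩
      · simp [cw] at e
      · rw [nil_append, flatMap_cons] at e
        have hl : a.length = a'.length := by rw [(hw a (by simp)).1, hx a' (by simp)]
        obtain ⟨e1, e2⟩ := append_inj e (by rw [length_cw, length_cw, hl])
        simp only [cw, cons.injEq, true_and] at e1
        have e3 := bits_inj Q hl (hw a (by simp)).2 (dbl_inj e1)
        subst e3
        exact (ih (fun b hb => hw b (by simp [hb])) x [] Safe.nil e2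
          fun b hb => hx b (by simp [hb])).cons_cons a
    | ff l _ => simp [cw] at e
    | tt l _ => simp [cw] at e

theorem editDist_lower {Q m : ℕ} {x y : List (List ℕ)} (hx : ∀ a ∈ x, a.length = m ∧ ∀ v ∈ a, v < Q)
    (hy : ∀ a ∈ y, a.length = m) :
    ∃ w : List (List ℕ), w <+ x ∧ w <+ y ∧
      x.length ≤ w.length + editDist (x.flatMap (cw Q)) (y.flatMap (cw Q)) := by
  obtain ⟨p, hp⟩ := exists_walk_editDist (x.flatMap (cw Q)) (y.flatMap (cw Q))
  obtain ⟨w, h1, h2, h3⟩ := Emb.walk p x (emb_enc _ _)
  exact ⟨w, h1, h3.sublist (fun a ha => hx a (h1.subset ha)) y [] Safe.nil rfl hy, hp ▸ h2⟩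

end Crest.Agent.R210
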