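import Crest.Agent.R210.CND
import Crest.Agent.R210.Words

/-!
Row 210: the recursive family of words indexed by a finite abelian group.
-/

set_option autoImplicit false

namespace Crest.Agent.R210

open Finset

/-- the invariants of the construction at height `k` with root modulus `q` -/
structure Good (r B b S t Q k q : ℕ) (A : Type) [AddCommGroup A] [Fintype A] (root : A)
    (str : A → List (List ℕ)) : Prop where
  len : ∀ e, (str e).length = (B * r) ^ k
  val : ∀ e, ∀ a ∈ str e, a.length = 2 * k + 1 ∧ ∀ v ∈ a, v < Q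
  per : q • root = 0
  lcs : ∀ e (i i' : ℕ), ¬ i ≡ i' [MOD q] → ∀ w : List (List ℕ), w.Sublist (str (e + i • root)) →
    w.Sublist (str (e + i' • root)) → w.length * r ≤ 2 * k * b * (B * r) ^ k
  poin : ∀ δ : A → A → ℝ, CND δ → ∀ K : ℝ, 0 ≤ K →
    (∀ e e' c, (∀ g : ℕ, Near c (str (e + g • root)) (str (e' + g • root))) → δ e e' ≤ K * c) →
    Tav δ root q ≤ Fintype.card A * (K * ((B * r : ℕ) : ℝ) ^ k * (4 * S / B + 1 / t ^ k))

theorem Tav_le {A : Type} [AddCommGroup A] [Fintype A] {δ : A → A → ℝ} {a : A} {m : ℕ} {C : ℝ}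
    (hC : 0 ≤ C) (h : ∀ e, ∀ u < m, δ e (e + u • a) ≤ C) : Tav δ a m ≤ Fintype.card A * C := by
  rcases Nat.eq_zero_or_pos m with rfl | hm
  · simp only [Tav, range_zero, sum_empty, zero_div]; positivity
  have hm' : (0 : ℝ) < m := by exact_mod_cast hm
  rw [Tav, div_le_iff₀ hm']
  calc ∑ u ∈ range m, Dsum δ (u • a) ≤ ∑ u ∈ range m, Fintype.card A * C := by
        refine sum_le_sum fun u hu => ?_
        calc Dsum δ (u • a) ≤ ∑ _e : A, C := sum_le_sum fun e _ => h e u (mem_range.1 hu)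
          _ = _ := by simp
    _ = _ := by simp; ring

theorem good_zero (r B b S t Q q : ℕ) [NeZero q] (hq : q ≤ Q) :
    Good r B b S t Q 0 q (ZMod q) 1 (fun c => [[c.val]]) := by
  refine ⟨fun e => by simp, fun e a ha => ?_, by simp, fun e i i' hi w h1 h2 => ?_,
    fun δ _ K hK h => ?_⟩
  · simp only [List.mem_singleton] at ha
    subst ha
    simpa using (ZMod.val_lt e).trans_le hq
  · rcases w with _ | ⟨a, w⟩
    · simp
    · exfalso
      have e1 := h1.subset (List.mem_cons_self)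
      have e2 := h2.subset (List.mem_cons_self)
      simp only [List.mem_singleton] at e1 e2
      have e3 := ZMod.val_injective q (List.singleton_injective (e1.symm.trans e2))
      simp only [nsmul_eq_mul, mul_one, add_right_inj] at e3
      exact hi ((ZMod.natCast_eq_natCast_iff _ _ _).1 e3)
  · refine Tav_le (by positivity) fun e u _ => ?_
    refine (h _ _ 1 fun g => near_of_length (by simp) (by simp)).trans ?_
    have : (0 : ℝ) ≤ 4 * S / B := by positivity
    simp only [pow_zero, Nat.cast_one, mul_one, div_one]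
    nlinarith

theorem sum_range_mul_mod (f : ℕ → ℕ) (r B : ℕ) :
    ∑ a ∈ range (B * r), f (a % r) = B * ∑ j ∈ range r, f j := by
  induction B with
  | zero => simp
  | succ B ih =>
    rw [add_mul, one_mul, sum_range_add, ih, add_mul, one_mul]
    congr 1
    refine sum_congr rfl fun j hj => ?_
    rw [Nat.mul_add_mod_of_lt (mem_range.1 hj)]

theorem card_bad_le {r b : ℕ} (p : Fin r → ℕ) (h2 : ∀ j, 2 ≤ p j)
    (hco : ∀ j j', j ≠ j' → Nat.Coprime (p j) (p j')) {i i' : ℕ} (hi : i ≤ 2 ^ b) (hi' : i' ≤ 2 ^ b)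
    (s : Finset (Fin r)) (hs : ∀ j ∈ s, i ≠ i' ∧ i ≡ i' [MOD p j]) : s.card ≤ b := by
  rcases s.eq_empty_or_nonempty with rfl | ⟨j0, hj0⟩
  · simp
  have hne := (hs j0 hj0).1
  have key : ∀ i i' : ℕ, i < i' → i' ≤ 2 ^ b → (∀ j ∈ s, i ≡ i' [MOD p j]) → s.card ≤ b := by
    intro i i' hlt hi' hs
    have hd : ∏ j ∈ s, p j ∣ i' - i :=
      Finset.prod_dvd_of_isRelPrime
        (fun j _ j' _ hjj => Nat.coprime_iff_isRelPrime.1 (hco j j' hjj))
        (fun j hj => (Nat.modEq_iff_dvd' hlt.le).1 (hs j hj))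
    have h3 := Nat.le_of_dvd (by omega) hd
    have h4 : 2 ^ s.card ≤ ∏ j ∈ s, p j := Finset.pow_card_le_prod _ _ _ fun j _ => h2 j
    exact (Nat.pow_le_pow_iff_right (a := 2) (by norm_num)).1 (by omega)
  rcases lt_or_gt_of_ne hne with h | h
  · exact key i i' h hi' fun j hj => (hs j hj).2
  · exact key i' i h hi fun j hj => (hs j hj).2.symm

section Step

variable {r : ℕ} {q : ℕ} {A : Fin r → Type} [∀ j, AddCommGroup (A j)]

/-- block in column `j` of row `i` -/
def blk (root : ∀ j, A j) (str : ∀ j, A j → List (List ℕ)) (e : ZMod q × ∀ j, A j) (j : Fin r) (i : ℕ) :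
    List (List ℕ) :=
  (str j (e.2 j + i • root j)).map fun a => j.val :: (e.1 + i).val :: a

/-- column of block number `a` -/
def col (hr : 0 < r) (a : ℕ) : Fin r := ⟨a % r, Nat.mod_lt _ hr⟩

/-- the word one level up -/
def strUp (hr : 0 < r) (B : ℕ) (root : ∀ j, A j) (str : ∀ j, A j → List (List ℕ))
    (e : ZMod q × ∀ j, A j) : List (List ℕ) :=
  (List.range (B * r)).flatMap fun a => blk root str e (col hr a) (a / r)

variable [∀ j, Fintype (A j)] {B b S t Q k : ℕ} {p : Fin r → ℕ} {root : ∀ j, A j}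
  {str : ∀ j, A j → List (List ℕ)}

theorem blk_common (hG : ∀ j, Good r B b S t Q k (p j) (A j) (root j) (str j)) [NeZero q]
    (e : ZMod q × ∀ j, A j) {I I' : ℕ} (hI : ¬ I ≡ I' [MOD q]) (j j' : Fin r) (i i' : ℕ)
    (w : List (List ℕ)) (h1 : w.Sublist (blk root str (e + I • (1, 0)) j i))
    (h2 : w.Sublist (blk root str (e + I' • (1, 0)) j' i')) :
    w = [] ∨ (j = j' ∧ ((i ≠ i' ∧ i ≡ i' [MOD p j] ∧ w.length ≤ (B * r) ^ k) ∨
      w.length * r ≤ 2 * k * b * (B * r) ^ k)) := by
  rcases w with _ | ⟨a, w⟩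
  · exact Or.inl rfl
  right
  have e1 := h1.subset List.mem_cons_self
  have e2 := h2.subset List.mem_cons_self
  simp only [blk, List.mem_map] at e1 e2
  obtain ⟨x, -, hx⟩ := e1
  obtain ⟨y, -, hy⟩ := e2
  have e3 := hx.trans hy.symm
  simp only [List.cons.injEq] at e3
  obtain rfl : j = j' := Fin.ext e3.1
  have e4 := ZMod.val_injective q e3.2.1
  refine ⟨rfl, ?_⟩
  by_cases hm : i ≡ i' [MOD p j]
  · left
    refine ⟨?_, hm, ?_⟩
    · rintro rfl
      simp only [Prod.smul_mk, nsmul_eq_mul, mul_one, Prod.fst_add, add_left_inj, add_right_inj] at e4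
      exact hI ((ZMod.natCast_eq_natCast_iff _ _ _).1 e4)
    · have := h1.length_le
      rwa [blk, List.length_map, (hG j).len] at this
  · right
    simp only [blk] at h1 h2
    rw [← e4] at h2
    obtain ⟨w1, h3, e5⟩ := List.sublist_map_iff.1 h1
    obtain ⟨w2, h4, e6⟩ := List.sublist_map_iff.1 h2
    have e7 : w1 = w2 := by
      refine List.map_injective_iff.2 ?_ (e5.symm.trans e6)
      intro u v h
      simpa using h
    subst e7
    rw [e5, List.length_map]
    simp only [Prod.smul_mk, smul_zero, Prod.snd_add, add_zero] at h3 h4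
    exact (hG j).lcs _ i i' hm w1 h3 h4

theorem div_mod_succ {r : ℕ} (hr : 0 < r) (a : ℕ) :
    ((a + 1) / r = a / r ∧ (a + 1) % r = a % r + 1) ∨ ((a + 1) / r = a / r + 1) := by
  have h1 := Nat.div_add_mod a r
  have h2 := Nat.mod_lt a hr
  by_cases h : a % r + 1 < r
  · left
    have e : a + 1 = r * (a / r) + (a % r + 1) := by omega
    constructor
    · rw [e, Nat.mul_add_div hr, Nat.div_eq_of_lt h, add_zero]
    · rw [e, Nat.mul_add_mod, Nat.mod_eq_of_lt h]
  · right
    have e : a + 1 = r * (a / r + 1) := by rw [mul_add]; omega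
    rw [e, Nat.mul_div_cancel_left _ hr]

theorem up_lcs (hr : 0 < r) (hev : Even r) (hB : B = 2 ^ b) (h2 : ∀ j, 2 ≤ p j)
    (hco : ∀ j j', j ≠ j' → Nat.Coprime (p j) (p j'))
    (hG : ∀ j, Good r B b S t Q k (p j) (A j) (root j) (str j)) [NeZero q]
    (e : ZMod q × ∀ j, A j) {I I' : ℕ} (hI : ¬ I ≡ I' [MOD q]) (w : List (List ℕ))
    (h1 : w.Sublist (strUp hr B root str (e + I • (1, 0))))
    (h1' : w.Sublist (strUp hr B root str (e + I' • (1, 0)))) :
    w.length * r ≤ 2 * (k + 1) * b * (B * r) ^ (k + 1) := by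
  classical
  set n := (B * r) ^ k with hn
  set Λ := 2 * k * b * n / r with hΛ
  set N := B * r with hN
  let cnt : ℕ → ℕ → ℕ := fun a a' =>
    (univ.filter fun j : Fin r => a % r ≤ j ∧ a' % r ≤ j ∧ a / r ≠ a' / r ∧ a / r ≡ a' / r [MOD p j]).card
  let Φ : ℕ → ℕ → ℕ := fun a a' =>
    Λ * ((2 * N - (a + a')) / 2) + n * (b * (2 * B - 1 - (a / r + a' / r)) + cnt a a')
  have hcnt : ∀ a a', a / r ≤ B → a' / r ≤ B → cnt a a' ≤ b := fun a a' ha ha' =>
    card_bad_le p h2 hco (hB ▸ ha) (hB ▸ ha') _ fun j hj => (mem_filter.1 hj).2.2.2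
  have hsym : ∀ a a', cnt a a' = cnt a' a := by
    intro a a'
    refine congrArg card (filter_congr fun j _ => ?_)
    exact ⟨fun h => ⟨h.2.1, h.1, h.2.2.1.symm, h.2.2.2.symm⟩,
      fun h => ⟨h.2.1, h.1, h.2.2.1.symm, h.2.2.2.symm⟩⟩
  have hΦsym : ∀ a a', Φ a a' = Φ a' a := by
    intro a a'
    simp only [Φ, hsym a a', add_comm a a', add_comm (a / r)]
  have hdiv : ∀ a < N, a / r < B := fun a ha => (Nat.div_lt_iff_lt_mul hr).2 ha
  -- one step of the potential
  have step : ∀ a < N, ∀ a' < N, ∀ l : ℕ, (l = 0 ∨ (a % r = a' % r ∧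
      ((a / r ≠ a' / r ∧ a / r ≡ a' / r [MOD p (col hr a)] ∧ l ≤ n) ∨ l ≤ Λ))) →
      l + Φ (a + 1) a' ≤ Φ a a' := by
    intro a ha a' ha' l hl
    have d1 := hdiv a ha
    have d2 := hdiv a' ha'
    have m1 : (2 * N - (a + 1 + a')) / 2 ≤ (2 * N - (a + a')) / 2 := by omega
    have m2 : b * (2 * B - 1 - ((a + 1) / r + a' / r)) + cnt (a + 1) a' +
        (if a % r = a' % r ∧ a / r ≠ a' / r ∧ a / r ≡ a' / r [MOD p (col hr a)] then 1 else 0) ≤
        b * (2 * B - 1 - (a / r + a' / r)) + cnt a a' := by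
      have hin : a % r = a' % r ∧ a / r ≠ a' / r ∧ a / r ≡ a' / r [MOD p (col hr a)] →
          col hr a ∈ univ.filter fun j : Fin r =>
            a % r ≤ j ∧ a' % r ≤ j ∧ a / r ≠ a' / r ∧ a / r ≡ a' / r [MOD p j] := fun h =>
        mem_filter.2 ⟨mem_univ _, le_rfl, h.1.ge, h.2⟩
      rcases div_mod_succ hr a with ⟨e1, e2⟩ | e1
      · have hsub : (univ.filter fun j : Fin r => (a + 1) % r ≤ j ∧ a' % r ≤ j ∧
            (a + 1) / r ≠ a' / r ∧ (a + 1) / r ≡ a' / r [MOD p j]) ⊆ univ.filter fun j : Fin r =>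
            a % r ≤ j ∧ a' % r ≤ j ∧ a / r ≠ a' / r ∧ a / r ≡ a' / r [MOD p j] := by
          intro j hj
          rw [mem_filter, e1, e2] at hj
          exact mem_filter.2 ⟨mem_univ _, by omega, hj.2.2⟩
        rw [e1]
        split_ifs with h
        · have : cnt (a + 1) a' < cnt a a' := by
            refine card_lt_card ⟨hsub, fun h' => ?_⟩
            have := (mem_filter.1 (h' (hin h))).2.1
            simp only [col] at this
            omega
          omega
        · have : cnt (a + 1) a' ≤ cnt a a' := card_le_card hsub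
          omega
      · have c1 := hcnt (a + 1) a' (by omega) d2.le
        have e2 : 2 * B - 1 - (a / r + a' / r) = 2 * B - 1 - ((a + 1) / r + a' / r) + 1 := by omega
        rw [e2, mul_add, mul_one]
        split_ifs with h
        · have : 0 < cnt a a' := card_pos.2 ⟨_, hin h⟩
          omega
        · omega
    have m1' := Nat.mul_le_mul_left Λ m1
    have m2' := Nat.mul_le_mul_left n m2
    simp only [Φ]
    rw [mul_add n] at m2'
    rcases hl with rfl | ⟨hc, ⟨h3, h4, h5⟩ | h5⟩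
    · omega
    · rw [if_pos ⟨hc, h3, h4⟩, mul_one] at m2'
      omega
    · have hpar : (a + a') % 2 = 0 := by
        obtain ⟨s, hs⟩ := hev
        have u1 := Nat.div_add_mod a r
        have u2 := Nat.div_add_mod a' r
        have : a + a' = 2 * (s * (a / r) + s * (a' / r) + a % r) := by
          rw [hs] at u1 u2 hc ⊢
          nlinarith
        omega
      have m3 : (2 * N - (a + a')) / 2 = (2 * N - (a + 1 + a')) / 2 + 1 := by omega
      rw [m3, mul_add Λ, mul_one]
      omega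
  have hΛle : ∀ l : ℕ, l * r ≤ 2 * k * b * n → l ≤ Λ := fun l hl => (Nat.le_div_iff_mul_le hr).2 hl
  have main := chain_bound (fun a => blk root str (e + I • (1, 0)) (col hr a) (a / r))
    (fun a => blk root str (e + I' • (1, 0)) (col hr a) (a / r)) N Φ ?_ N N 0 0 (by simp) (by simp) w
    (by rwa [← List.range_eq_range']) (by rwa [← List.range_eq_range'])
  · have c0 : cnt 0 0 ≤ b := hcnt 0 0 (by simp) (by simp)
    have c1 : Λ * r ≤ 2 * k * b * n := Nat.div_mul_le_self _ _
    have c2 : 1 ≤ B := by rw [hB]; exact Nat.one_le_two_pow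
    simp only [Φ, add_zero, Nat.zero_div, tsub_zero] at main
    have c3 : 2 * N / 2 = N := by omega
    have c4 : b * (2 * B - 1) + cnt 0 0 ≤ b * (2 * B) := by
      obtain ⟨B', rfl⟩ : ∃ B', B = B' + 1 := ⟨B - 1, by omega⟩
      have : 2 * (B' + 1) - 1 = 2 * B' + 1 := by omega
      rw [this]; nlinarith
    rw [c3] at main
    have c5 := Nat.mul_le_mul_left n c4
    calc w.length * r ≤ (Λ * N + n * (b * (2 * B))) * r := Nat.mul_le_mul_right _ (by omega)
      _ = Λ * r * N + 2 * b * n * N := by rw [hN]; ring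
      _ ≤ 2 * k * b * n * N + 2 * b * n * N := by gcongr
      _ = _ := by rw [pow_succ, ← hn]; ring
  · intro a ha a' ha' v hv hv'
    have := blk_common hG e hI _ _ _ _ v hv hv'
    constructor
    · refine step a ha a' ha' _ ?_
      rcases this with rfl | ⟨hc, h3 | h3⟩
      · exact Or.inl rfl
      · exact Or.inr ⟨congrArg Fin.val hc, Or.inl h3⟩
      · exact Or.inr ⟨congrArg Fin.val hc, Or.inr (hΛle _ h3)⟩
    · rw [hΦsym a (a' + 1), hΦsym a a']
      refine step a' ha' a ha _ ?_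
      rcases this with rfl | ⟨hc, h3 | h3⟩
      · exact Or.inl rfl
      · exact Or.inr ⟨(congrArg Fin.val hc).symm, Or.inl ⟨h3.1.symm, hc ▸ h3.2.1.symm, h3.2.2⟩⟩
      · exact Or.inr ⟨(congrArg Fin.val hc).symm, Or.inr (hΛle _ h3)⟩

end Step

end Crest.Agent.R210
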