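import Crest.Agent.R210.Gadget

/-!
Row 210: the Poincaré inequality one level up and the existence of the construction.
-/

set_option autoImplicit false

namespace Crest.Agent.R210

open Finset

section Step

variable {r : ℕ} {q : ℕ} {A : Fin r → Type} [∀ j, AddCommGroup (A j)] [∀ j, Fintype (A j)]
  {B b S t Q k : ℕ} {p : Fin r → ℕ} {root : ∀ j, A j} {str : ∀ j, A j → List (List ℕ)}

theorem blk_length (hG : ∀ j, Good r B b S t Q k (p j) (A j) (root j) (str j))
    (e : ZMod q × ∀ j, A j) (j : Fin r) (i : ℕ) : (blk root str e j i).length = (B * r) ^ k := by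
  rw [blk, List.length_map, (hG j).len]

theorem shift_near (hr : 0 < r) (hG : ∀ j, Good r B b S t Q k (p j) (A j) (root j) (str j))
    (e : ZMod q × ∀ j, A j) (u : ℕ) :
    Near (u * r * (B * r) ^ k) (strUp hr B root str e) (strUp hr B root str (e + u • (1, root))) := by
  have := near_shift (fun a => blk root str e (col hr a) (a / r)) ((B * r) ^ k) (B * r) (u * r)
    fun a => blk_length hG e _ _
  have e0 : (fun a => blk root str (e + u • (1, root)) (col hr a) (a / r)) =
      fun a => blk root str e (col hr (a + u * r)) ((a + u * r) / r) := ?_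
  · unfold strUp
    rw [e0]
    exact this
  funext a
  have e1 : col hr (a + u * r) = col hr a := Fin.ext (by simp [col])
  rw [e1, Nat.add_mul_div_right _ _ hr]
  simp only [blk, Prod.smul_mk, Prod.fst_add, Prod.snd_add, Pi.add_apply, Pi.smul_apply, nsmul_eq_mul,
    mul_one, Nat.cast_add, add_smul]
  congr 1
  · funext x; congr 3; ring
  · congr 1; abel

omit [∀ j, Fintype (A j)] in
theorem child_near [DecidableEq (Fin r)] (hr : 0 < r) (j : Fin r) (e : ZMod q × ∀ j, A j) (x y : A j) (c : ℕ)
    (h : ∀ g : ℕ, Near c (str j (x + g • root j)) (str j (y + g • root j))) (g : ℕ) :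
    Near (B * c) (strUp hr B root str (e + (0, Pi.single j (x - e.2 j)) + g • (1, 0)))
      (strUp hr B root str (e + (0, Pi.single j (y - e.2 j)) + g • (1, 0))) := by
  have hs := sum_range_mul_mod (fun a => if a = j.val then c else 0) r B
  simp only [sum_ite_eq', mem_range, j.2, if_true] at hs
  rw [← hs]
  refine near_flatMap_range _ _ (fun a => if a % r = j.val then c else 0) _ fun a _ => ?_
  by_cases ha : a % r = j.val
  · obtain rfl : col hr a = j := Fin.ext ha
    rw [if_pos ha]
    simp only [blk, Prod.smul_mk, Prod.fst_add, Prod.snd_add, Pi.add_apply, smul_zero, add_zero,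
      Pi.single_eq_same, add_sub_cancel, Pi.zero_apply]
    exact (h _).map _
  · have hne : col hr a ≠ j := fun h => ha (congrArg Fin.val h)
    rw [if_neg ha]
    simp only [blk, Prod.smul_mk, Prod.fst_add, Prod.snd_add, Pi.add_apply, smul_zero, add_zero,
      Pi.single_eq_of_ne hne]
    exact near_refl _

theorem child_sum [NeZero q] [DecidableEq (Fin r)] (j : Fin r)
    (δ : (ZMod q × ∀ j, A j) → (ZMod q × ∀ j, A j) → ℝ) (a : A j) :
    ∑ e : ZMod q × ∀ j, A j, Dsum (fun x y : A j => δ (e + (0, Pi.single j (x - e.2 j)))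
      (e + (0, Pi.single j (y - e.2 j)))) a =
      Fintype.card (A j) * Dsum δ (0, Pi.single j a) := by
  have e1 : ∀ e : ZMod q × ∀ j, A j, Dsum (fun x y : A j => δ (e + (0, Pi.single j (x - e.2 j)))
      (e + (0, Pi.single j (y - e.2 j)))) a =
      ∑ x : A j, δ (e + (0, Pi.single j x)) (e + (0, Pi.single j x) + (0, Pi.single j a)) := by
    intro e
    rw [Dsum, ← Equiv.sum_comp (Equiv.addRight (e.2 j))]
    refine sum_congr rfl fun x _ => ?_
    have : x + e.2 j + a - e.2 j = x + a := by abel
    simp only [Equiv.coe_addRight, add_sub_cancel_right, this]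
    simp only [Pi.single_add, add_assoc, Prod.mk_add_mk, add_zero]
  simp only [e1]
  rw [sum_comm]
  have e2 : ∀ x : A j, ∑ e : ZMod q × ∀ j, A j,
      δ (e + (0, Pi.single j x)) (e + (0, Pi.single j x) + (0, Pi.single j a)) =
      Dsum δ (0, Pi.single j a) := fun x =>
    Equiv.sum_comp (Equiv.addRight ((0, Pi.single j x) : ZMod q × ∀ j, A j))
      (fun e => δ e (e + (0, Pi.single j a)))
  simp [e2]

theorem good_step [NeZero q] (hr : 0 < r) (hev : Even r) (hB : B = 2 ^ b) (h2 : ∀ j, 2 ≤ p j)
    (hco : ∀ j j', j ≠ j' → Nat.Coprime (p j) (p j')) (hcq : ∀ j, Nat.Coprime q (p j))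
    (hrQ : r ≤ Q) (hqQ : q ≤ Q) (hpQ : ∀ j, p j ≤ Q) (ht : 2 ≤ t) (hS : 2 * Q ^ t ≤ S)
    (hG : ∀ j, Good r B b S t Q k (p j) (A j) (root j) (str j)) :
    Good r B b S t Q (k + 1) q (ZMod q × ∀ j, A j) (1, 0) (strUp hr B root str) := by
  classical
  refine ⟨fun e => ?_, fun e a ha => ?_, by simp,
    fun e i i' hi w h1 h1' => up_lcs hr hev hB h2 hco hG e hi w h1 h1', fun δ hδ K hK h => ?_⟩
  · rw [strUp, length_flatMap_const _ _ _ fun a _ => blk_length hG e _ _, List.length_range]; ring
  · simp only [strUp, blk, List.mem_flatMap, List.mem_map] at ha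
    obtain ⟨a0, -, x, hx, rfl⟩ := ha
    obtain ⟨h3, h4⟩ := (hG _).val _ x hx
    refine ⟨by simp [h3]; ring, fun v hv => ?_⟩
    simp only [List.mem_cons] at hv
    rcases hv with rfl | rfl | hv
    · exact (col hr a0).2.trans_le hrQ
    · exact (ZMod.val_lt _).trans_le hqQ
    · exact h4 v hv
  · have hB0 : (0 : ℝ) < B := by rw [hB]; positivity
    have ht0 : (2 : ℝ) ≤ t := by exact_mod_cast ht
    set n : ℝ := ((B * r : ℕ) : ℝ) ^ k with hn
    have hn0 : 0 ≤ n := by positivity
    set γ : ℝ := 4 * S / B + 1 / t ^ k with hγ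
    have hγ0 : 0 ≤ γ := by positivity
    set C : ℝ := Nat.cast (Fintype.card (ZMod q × ∀ j, A j)) with hC
    have hC0 : 0 ≤ C := by positivity
    have loc := local_poincare hδ p (NeZero.pos q) (fun j => by have := h2 j; omega) hqQ hpQ hcq
      (by omega) hS ((1, 0) : ZMod q × ∀ j, A j) (fun j => (0, Pi.single j (root j))) (by simp)
      (fun j => by simp [← Pi.single_smul, (hG j).per])
    have e1 : ((1, 0) : ZMod q × ∀ j, A j) + ∑ j, (0, Pi.single j (root j)) = (1, root) := by
      ext
      · simp [Prod.fst_sum]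
      · simp [Prod.snd_sum]
    rw [e1] at loc
    have b1 : Tav δ (1, root) S ≤ C * (K * (S * r * n)) := by
      refine Tav_le (by positivity) fun e u hu => ?_
      refine (h _ _ (u * r * (B * r) ^ k) fun g => ?_).trans ?_
      · rw [add_right_comm e]
        exact shift_near hr hG _ u
      · have : (u : ℝ) ≤ S := by exact_mod_cast hu.le
        rw [hn]
        push_cast
        gcongr
    have b2 : ∀ j, Tav δ (0, Pi.single j (root j)) (p j) ≤ C * (K * B * n * γ) := by
      intro j
      have hc : (0 : ℝ) < Fintype.card (A j) := by exact_mod_cast Fintype.card_pos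
      have h5 : ∀ e : ZMod q × ∀ j, A j, Tav (fun x y : A j => δ (e + (0, Pi.single j (x - e.2 j)))
          (e + (0, Pi.single j (y - e.2 j)))) (root j) (p j) ≤
          Fintype.card (A j) * (K * B * n * γ) := by
        intro e
        refine (hG j).poin _ (hδ.comp fun x => e + (0, Pi.single j (x - e.2 j))) (K * B)
          (by positivity) fun x y c hxy => ?_
        refine (h _ _ (B * c) (child_near hr j e x y c hxy)).trans_eq ?_
        push_cast; ring
      have h6 := sum_le_sum fun e (_ : e ∈ univ) => h5 e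
      simp only [Tav, ← sum_div] at h6
      rw [sum_comm] at h6
      simp only [child_sum, ← mul_sum, sum_const, card_univ, nsmul_eq_mul] at h6
      rw [mul_div_assoc] at h6
      have h7 := le_of_mul_le_mul_left h6 hc
      simp only [Tav, Prod.smul_mk, smul_zero, ← Pi.single_smul]
      exact h7.trans_eq (by rw [hC]; ring)
    have b3 : ∑ j, Tav δ (0, Pi.single j (root j)) (p j) ≤ r * (C * (K * B * n * γ)) := by
      refine (sum_le_sum fun j _ => b2 j).trans_eq ?_
      simp
    have b4 : (∑ j, Tav δ (0, Pi.single j (root j)) (p j)) / t ≤ r * (C * (K * B * n * γ)) / t := by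
      gcongr
    have b5 : 2 * S / B + γ / t ≤ 4 * S / B + 1 / (t : ℝ) ^ (k + 1) := by
      have : 4 * (S : ℝ) / B / t ≤ 4 * S / B / 2 := by gcongr
      have e : γ / t = 4 * S / B / t + 1 / (t : ℝ) ^ (k + 1) := by rw [hγ]; field_simp; ring
      have e' : 4 * (S : ℝ) / B / 2 = 2 * S / B := by ring
      have e'' : 4 * (S : ℝ) / B = 2 * S / B + 2 * S / B := by ring
      linarith
    calc _ ≤ 2 * (C * (K * (S * r * n))) + r * (C * (K * B * n * γ)) / t := by linarith
      _ = C * (K * (n * (B * r)) * (2 * S / B + γ / t)) := by field_simp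
      _ ≤ C * (K * (n * (B * r)) * (4 * S / B + 1 / (t : ℝ) ^ (k + 1))) := by gcongr
      _ = _ := by rw [hn, pow_succ]; push_cast; ring

end Step

theorem exists_good (P : ℕ → ℕ) {r B b S t Q N : ℕ} (hr : 0 < r) (hev : Even r) (hB : B = 2 ^ b)
    (h2 : ∀ i, 2 ≤ P i) (hco : ∀ i j, i ≠ j → Nat.Coprime (P i) (P j)) (hrQ : r ≤ Q)
    (hPQ : ∀ i < N, P i ≤ Q) (ht : 2 ≤ t) (hS : 2 * Q ^ t ≤ S) (k : ℕ) :
    ∀ i, k * r ≤ i → i < N → ∃ (A : Type) (_ : AddCommGroup A) (_ : Fintype A) (root : A)
      (str : A → List (List ℕ)), Good r B b S t Q k (P i) A root str := by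
  induction k with
  | zero =>
    intro i _ hi
    have : NeZero (P i) := ⟨by have := h2 i; omega⟩
    exact ⟨_, _, _, _, _, good_zero r B b S t Q (P i) (hPQ i hi)⟩
  | succ k ih =>
    intro i hk hi
    have : NeZero (P i) := ⟨by have := h2 i; omega⟩
    have hlt : ∀ j : Fin r, k * r + j < i := fun j => by
      have := j.2
      rw [add_mul] at hk
      omega
    choose A g f root str hG using fun j : Fin r => ih (k * r + j) (by omega) ((hlt j).trans hi)
    exact ⟨_, _, _, _, _, good_step (p := fun j : Fin r => P (k * r + j)) hr hev hB (fun j => h2 _)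
      (fun j j' h => hco _ _ fun e => h (Fin.ext (by omega))) (fun j => hco _ _ (hlt j).ne') hrQ
      (hPQ i hi) (fun j => hPQ _ ((hlt j).trans hi)) ht hS hG⟩

end Crest.Agent.R210
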